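import Vale.Agent.P052.Defs
import Vale.Agent.P052.AllMain

namespace Vale.Agent.Results.P052.FailsFrom63

open Vale.Agent.P052

/-- Borsuk's conjecture fails in every dimension `d ≥ 63`. -/
theorem result : ∀ d : ℕ, 63 ≤ d → ¬ BorsukConjecture d :=
  not_borsuk_ge

end Vale.Agent.Results.P052.FailsFrom63
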