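import Vale.Agent.P052.Defs
import Vale.Agent.P052.Main

namespace Vale.Agent.Results.P052.FailsIn63

open Vale.Agent.P052

/-- Borsuk's conjecture fails in dimension 63: some bounded subset of `ℝ^63` of positive diameter is
not a union of 64 subsets of strictly smaller diameter. -/
theorem result : ¬ BorsukConjecture 63 :=
  not_borsuk_63

end Vale.Agent.Results.P052.FailsIn63
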